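import Vale.Agent.P052.Space

namespace Vale.Agent.Results.P052.BorsukFails63

open Vale.Agent.P052

theorem result : ∃ Y : Set (EuclideanSpace ℝ (Fin 63)),
    Bornology.IsBounded Y ∧ 0 < Metric.diam Y ∧
      ∀ P : Fin 64 → Set (EuclideanSpace ℝ (Fin 63)), Y = ⋃ i, P i →
        ∃ i, Metric.diam Y ≤ Metric.diam (P i) := by
  classical
  let e : flat ≃ₗᵢ[ℝ] EuclideanSpace ℝ (Fin 63) :=
    ((stdOrthonormalBasis ℝ flat).reindex (finCongr finrank_flat)).repr
  let f : Idx → EuclideanSpace ℝ (Fin 63) := fun x => e ⟨point x, point_mem x⟩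
  have hd : ∀ x y, dist (f x) (f y) = dist (point x) (point y) := fun x y => e.dist_map _ _
  have hle : ∀ x y, dist (f x) (f y) ≤ √192 := by
    intro x y
    rw [hd]
    by_cases h : x = y
    · rw [h, dist_self]; positivity
    · exact Real.le_sqrt_of_sq_le (dist_sq_facts h).1
  have hfar : ∀ x y, x ≠ y → Adj (vert x) (vert y) = false → dist (f x) (f y) = √192 := by
    intro x y h ha
    rw [hd, ← (dist_sq_facts h).2 ha, Real.sqrt_sq dist_nonneg]
  have hbdd : Bornology.IsBounded (Set.range f) := (Set.finite_range f).isBounded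
  have hdiam : Metric.diam (Set.range f) ≤ √192 :=
    Metric.diam_le_of_forall_dist_le (Real.sqrt_nonneg _) (by
      rintro _ ⟨x, rfl⟩ _ ⟨y, rfl⟩
      exact hle x y)
  have h12 : 0 < Metric.diam (Set.range f) := by
    have h1 : Sel 1 = true := check_sel.2.1
    have h2 : Sel 2 = true := check_sel.2.2.1
    have h3 : Adj 1 2 = false := check_sel.2.2.2.1
    have := Metric.dist_le_diam_of_mem hbdd (Set.mem_range_self (some ⟨1, h1⟩))
      (Set.mem_range_self (some ⟨2, h2⟩))
    have hne : (some ⟨1, h1⟩ : Idx) ≠ some ⟨2, h2⟩ := by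
      intro e
      have := congrArg vert e
      simp [vert, Fin.ext_iff] at this
    rw [hfar _ _ hne h3] at this
    exact lt_of_lt_of_le (by positivity) this
  refine ⟨Set.range f, hbdd, h12, fun P hP => ?_⟩
  have hcov : ∀ x, ∃ i, f x ∈ P i := fun x => Set.mem_iUnion.1 (hP ▸ Set.mem_range_self x)
  choose c hc using hcov
  obtain ⟨i, hi⟩ := Fintype.exists_lt_card_fiber_of_mul_lt_card (n := 5) c (by
    rw [card_idx, Fintype.card_fin]; norm_num)
  obtain ⟨T, hT, hTc⟩ := Finset.exists_subset_card_eq (Nat.succ_le_of_lt hi)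
  refine ⟨i, le_of_not_gt fun hlt => ?_⟩
  have hsub : P i ⊆ Set.range f := hP ▸ Set.subset_iUnion P i
  refine no_six (T.map ⟨vert, vert_injective⟩) (by rw [Finset.card_map, hTc]) ?_
  intro a ha b hb hab
  simp only [Finset.mem_map, Function.Embedding.coeFn_mk] at ha hb
  obtain ⟨x, hx, rfl⟩ := ha
  obtain ⟨y, hy, rfl⟩ := hb
  by_contra hn
  have hfx : f x ∈ P i := by
    have := (Finset.mem_filter.1 (hT hx)).2
    rw [← this]; exact hc x
  have hfy : f y ∈ P i := by
    have := (Finset.mem_filter.1 (hT hy)).2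
    rw [← this]; exact hc y
  have h1 := Metric.dist_le_diam_of_mem (hbdd.subset hsub) hfx hfy
  rw [hfar x y (fun e => hab (by rw [e])) (by simpa using hn)] at h1
  linarith

end Vale.Agent.Results.P052.BorsukFails63
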